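import Vale.Agent.P224.POS.Psd

/-!
Certificate data: Gram matrices 4,5,6 and their positive semidefiniteness.
-/

namespace Vale.Agent.P224.POS.M12

open Vale.Agent.P224.POS

noncomputable section

/-- Gram matrix of block 4 ((u1-E)*sca00), rows of the lower triangle -/
def G4 : List (List Int) := rowsZ 1099511627776 [
  563450433888,
  965079122701277268426976,
  1155805527087238819484858205777119264,
  1240684515300690922953201944026864566252872845752] 0

/-- witness of block 4 -/
def W4 : List (List Nat) := rowsN 2097152 [
  1164655,
  3312454515538,
  5474645519340257166,
  9976566150779213024541348] 0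

set_option maxRecDepth 100000 in
theorem psd4 : psdChk 1048576 1 44064857 W4 G4 = true := by decide +kernel

/-- Gram matrix of block 5 ((u1-E)*sca10), rows of the lower triangle -/
def G5 : List (List Int) := rowsZ 4294967296 [
  3470333648] 0

/-- witness of block 5 -/
def W5 : List (List Nat) := rowsN 65536 [
  55771] 0

set_option maxRecDepth 100000 in
theorem psd5 : psdChk 32768 1 396854999 W5 G5 = true := by decide +kernel

/-- Gram matrix of block 6 ((u1-E)*sca11), rows of the lower triangle -/
def G6 : List (List Int) := rowsZ 4398046511104 [
  2199391855552,
  10446304572956227331324960,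
  65161901900091941821647998412419296392] 0

/-- witness of block 6 -/
def W6 : List (List Nat) := rowsN 4194304 [
  2109329,
  10547317743207,
  37483024177539475325] 0

set_option maxRecDepth 100000 in
theorem psd6 : psdChk 2097152 1 55081691 W6 G6 = true := by decide +kernel

end

end Vale.Agent.P224.POS.M12
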