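import Vale.Agent.P224.SMH.B12
import Vale.Agent.P224.SH.Chk12
import Vale.Agent.P224.POS.EOk

/-!
The data of the static part in dimension 12.
-/

namespace Vale.Agent.P224.POS.M12

open Set Filter Function Vale.Agent.P224
open Vale.Agent.P224.SMH Vale.Agent.P224.SH
open Vale.Agent.P224.SM2 hiding ker

/-- the bounds of the coefficient functions -/
theorem bds {y Z e r : ℝ → ℝ} {lam : ℝ} (hc : Cert 12 y Z e r) (hl : CertLim 12 y Z e r lam)
    (h0 : y 0 = 11 / 10) {T : ℝ} (hT : T ∈ Ioo (0 : ℝ) 1) : SH.Bds BD12 T (y T) (e T) (r T) where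
  y := by
    have h := (yZ12 hc hl h0 hT).1
    simp only [BD12, pv]
    rw [h]
    unfold P12
    push_cast
    exact le_of_eq (by ring)
  el := by
    have h := B12.el hc hl h0 T hT
    have e1 : pv BD12.el T = BD12.N * (T * (1 - T) ^ (5 + 2) * SMH.pd 100000 B12.Lel T) := by
      simp only [SMH.pd, B12.Lel, BD12, pv]
      push_cast
      ring
    rw [e1]
    exact mul_le_mul_of_nonneg_left h (Nat.cast_nonneg _)
  eu := by
    have h := B12.eu hc hl h0 T hT
    have e1 : pv BD12.eu T = BD12.N * (T * (1 - T) ^ (5 + 2) * SMH.pd 100000 B12.Leu T) := by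
      simp only [SMH.pd, B12.Leu, BD12, pv]
      push_cast
      ring
    rw [e1]
    exact mul_le_mul_of_nonneg_left h (Nat.cast_nonneg _)
  rl := by
    have h := B12.rl hc hl h0 T hT
    have e1 : pv BD12.rl T = BD12.N * ((1 - T) ^ (5 + 2) * SMH.pd 100000 B12.Lrl T) := by
      simp only [SMH.pd, B12.Lrl, BD12, pv]
      push_cast
      ring
    rw [e1]
    exact mul_le_mul_of_nonneg_left h (Nat.cast_nonneg _)
  ru := by
    have h := B12.ru hc hl h0 T hT
    have e1 : pv BD12.ru T = BD12.N * ((1 - T) ^ (5 + 2) * SMH.pd 100000 B12.Lru T) := by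
      simp only [SMH.pd, B12.Lru, BD12, pv]
      push_cast
      ring
    rw [e1]
    exact mul_le_mul_of_nonneg_left h (Nat.cast_nonneg _)

/-- the data of the static part in dimension 12 -/
theorem eok : EOk (2 * 6) (evenRatio 6) (5117 / 10000) HD12 := by
  refine eok_of_all (by norm_num) (by norm_num) fun y Z e r lam hc hl hy _ _ => ?_
  have h0 : y 0 = 11 / 10 := by
    rw [hy]
    norm_num
  refine ⟨?_, fun T hT k hk => le_FKK okK12 hT (bds hc hl h0 hT) hk⟩
  have h1 := B12.r_zero hc hl h0
  push_cast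
  linarith

end Vale.Agent.P224.POS.M12
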