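import Vale.Agent.P224.POS.M12.Rows
import Vale.Agent.P224.POS.LawNumM
import Mathlib.Analysis.Real.Pi.Bounds

/-!
The numerical law of the certificate in dimension 12.
-/

namespace Vale.Agent.P224.POS.M12

open Vale.Agent.P224.UE

/-- **The numerical law.** -/
theorem hneg {γ : ℝ} (hγ : γ ≤ 5117 / 10000) : ∀ Θ u r : ℝ, 6 / 5 ≤ Θ → Θ < 231 / 160 → 0 ≤ u →
    Θ ^ 2 * u ≤ 1 → u ^ 2 ≤ r → r ≤ u →
      Θ * (1 + γ * u + (0 + (0 + (-(52204191 / 16777216)) + (2977382563 / 1073741824)) * u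
        + ((-(1926358283 / 1073741824)) + (698451213 / 1073741824)) * r
        + ((213421475 / 1073741824) + 0) * u ^ 2
        + 0 * ((u - r) / (2 * ((6 : ℕ) : ℝ) + 1))))
        + (gam 6 6)⁻¹ * rvalM (2 * 6) (rl 5368709120000 rows) u r < 231 / 160 := by
  intro Θ u r h1 h2 hu hT hr1 hr2
  have hg : (gam 6 6)⁻¹ = 693 / 8 := by norm_num [gam]
  have hr : rvalM (2 * 6) (rl 5368709120000 rows) u r = -(16177441 / 3489660928) * u + 33255817 / 1744830464 * r := rval_eq u r
  rw [hg, hr]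
  refine law_negM_S (Cl := 231 / 160) (Cu := 231 / 160) (γu := 5117 / 10000)
    (φ1 := 693 / 8 * (-(16177441 / 3489660928))) (φ2 := 693 / 8 * (33255817 / 1744830464))
    (by linarith) (by linarith) hγ (by norm_num) (by norm_num) (by norm_num) ?_ ?_
    h1 h2 hu hT hr1 hr2 (by ring)
  · intro T hT1 hT2
    exact quintic_neg (by norm_num) (by norm_num) (by norm_num) (by norm_num) (by norm_num)
      (by norm_num) (by norm_num) (le_of_eq rfl) (le_of_eq rfl) (le_of_eq rfl) (le_of_eq rfl)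
      (le_of_eq rfl) (le_of_eq rfl) hT1 hT2
  · intro T hT1 hT2
    exact quintic_neg (by norm_num) (by norm_num) (by norm_num) (by norm_num) (by norm_num)
      (by norm_num) (by norm_num) (le_of_eq rfl) (le_of_eq rfl) (le_of_eq rfl) (le_of_eq rfl)
      (le_of_eq rfl) (le_of_eq rfl) hT1 hT2

end Vale.Agent.P224.POS.M12
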