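import Vale.Agent.P224.POS.M12.Law
import Vale.Agent.P224.POS.ZM

/-!
The assembly with the numbers of the certificate in dimension 12.
-/

namespace Vale.Agent.P224.POS.M12

open MeasureTheory Set Filter Function Module Vale.Agent.P224 Vale.Agent.P224.UE
open Vale.Agent.P224.SM2 hiding ker
open scoped Topology RealInnerProductSpace ENNReal ContDiff Manifold

set_option linter.unusedSectionVars false

/-- the static functional -/
noncomputable def Ls : R9 → ℝ :=
  RM.Lg 10000 7 [48, 169, 216, 82] [242, 783, 1414, 1766, 2177, 2349, 2479] [0, -60, -84, 225, 547, 409]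
    [182, 638, 1094, 930, 419]

section

variable {V W M : Type*} [NormedAddCommGroup V] [InnerProductSpace ℝ V] [FiniteDimensional ℝ V]
  [NormedAddCommGroup W] [InnerProductSpace ℝ W] [FiniteDimensional ℝ W]
  [TopologicalSpace M] [ChartedSpace V M]
  [MeasurableSpace V] [BorelSpace V] [MeasurableSpace M] [BorelSpace M]
  [IsManifold 𝓘(ℝ, V) ∞ M] [CompactSpace M] [T2Space M] [ConnectedSpace M]
  [MeasurableSpace W] [BorelSpace W]

/-- The sharp bound in dimension 12 from the static inequality and the positivity of the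
polynomial of the certificate. -/
theorem main_of (hV : finrank ℝ V = 12) (hW : finrank ℝ W = finrank ℝ V + 2)
    {F : M → W} (hF : SphImm V F) (hmin : ∀ x n, IsUnitNormal V F x n → meanCurv V F x n = 0)
    (hng : ¬ ∃ a : W, a ≠ 0 ∧ ∀ x, ⟪F x, a⟫ = 0) {γ : ℝ} (hγ : γ ≤ 5117 / 10000)
    (hL : ∀ N : M → W, ContMDiff 𝓘(ℝ, V) 𝓘(ℝ, W) ∞ N → (∀ x, IsUnitNormal V F x (N x)) →
      Injective F → ∀ e : W, Integrable (fun q => Ls (dat F N e q)) ((volM V F).prod (volM V F)) ∧
        ∫ q, Ls (dat F N e q) ∂((volM V F).prod (volM V F))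
          + 231 / 160 * sphereVol 12 * (volM V F).real univ
          ≤ (volM V F).real univ ^ 2 + γ * ‖∫ x, N x ∂(volM V F)‖ ^ 2)
    (hpos : ∀ e x N y w : W, ‖e‖ ^ 2 ≤ 25 / 36 → ‖x‖ = 1 → ‖N‖ = 1 → ‖y‖ = 1 → ‖w‖ = 1 →
      ⟪x, N⟫ = 0 → ⟪y, w⟫ = 0 → ⟪x, y⟫ < 1 → 0 ≤ PE.ev (cd (dv x N y w e)) P) :
    ENNReal.ofReal (leastClifford (finrank ℝ V)) ≤ volM V F univ := by
  have hC : 231 / 160 = evenRatio 6 := by
    rw [evenRatio_six]
  refine main_m_of_cert (h := 6) (by norm_num) hV hW hF hmin hng (C := 231 / 160)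
    ?_ ?_ rows_ok hL (fun e x N y w he hx hN hy hw hxN hyw hs =>
    pos_of hs (hpos e x N y w he hx hN hy hw hxN hyw hs)) (hneg hγ)
  · have := Real.pi_lt_d6
    linarith
  · rw [hC]
    exact leastClifford_even (by norm_num)

end

end Vale.Agent.P224.POS.M12
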